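import Vale.Agent.P336M.Main

open Finset

theorem Vale.Agent.Results.P336.FewClauses.result (n m : ℕ)
    (T : Finset (Finset (Finset (Fin n × Bool)))) (hm : ∀ F ∈ T, F.card ≤ m) :
    (∀ A : Finset (Fin n → Bool),
      (∀ x : Fin n → Bool, (∃ F ∈ T, ∀ C ∈ F, ∃ l ∈ C, x l.1 = l.2) ↔ x ∈ A) →
      (∀ x ∈ A, ∀ i, Function.update x i (!x i) ∉ A) →
      A.card ≤ T.card * (2 ^ (n / 2) * m.choose n)) ∧
    (0 < n → (∀ x : Fin n → Bool, (∃ F ∈ T, ∀ C ∈ F, ∃ l ∈ C, x l.1 = l.2) ↔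
        Odd (univ.filter fun j => x j = true).card) →
      2 ^ (n - 1) ≤ T.card * (2 ^ (n / 2) * m.choose n)) :=
  ⟨fun A h1 h2 => P336M.main m T hm A h1 h2, fun hn h => P336M.parity hn m T hm h⟩
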