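import Vale.Agent.P336M.Trade

open Finset

theorem Vale.Agent.Results.P336.WideClauses.result (n m k : ℕ) (hk : 1 ≤ k)
    (hmk : 2 * m * n ≤ 2 ^ k) (T : Finset (Finset (Finset (Fin n × Bool))))
    (hm : ∀ F ∈ T, (F.filter fun C => k < C.card).card ≤ m) :
    (∀ A : Finset (Fin n → Bool),
      (∀ x : Fin n → Bool, (∃ F ∈ T, ∀ C ∈ F, ∃ l ∈ C, x l.1 = l.2) ↔ x ∈ A) →
      (∀ x ∈ A, ∀ i, Function.update x i (!x i) ∉ A) →
      (A.card : ℝ) ≤ T.card * (2 * (2 : ℝ) ^ ((1 - 1 / (4 * (k : ℝ))) * n))) ∧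
    (0 < n → (∀ x : Fin n → Bool, (∃ F ∈ T, ∀ C ∈ F, ∃ l ∈ C, x l.1 = l.2) ↔
        Odd (univ.filter fun j => x j = true).card) →
      (2 : ℝ) ^ ((n : ℝ) / (4 * k)) ≤ 4 * T.card) :=
  ⟨fun A h1 h2 => P336M.trade m k hk hmk T hm A h1 h2,
    fun hn h => P336M.trade_parity hn m k hk hmk T hm h⟩
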